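import Vale.Agent.P235.H56.MinTrans

/-!
P235, line K5, [WAG] (helper972 #16595), rows [W-DICH] and the `K_5` constructor (helper531).

Letters: `Con G X` (`X` is connected and nonempty), `Tch G X Y` (an edge between `X` and `Y`),
`Quo G P` (quotient graph of a family of sets).
-/

set_option autoImplicit false

namespace Vale.Agent.P235.K5.W.H531

open SimpleGraph Vale.Agent.P235.H134 Vale.Agent.P235.H56

variable {V ι : Type} {G : SimpleGraph V}

/-- `X` is connected (and nonempty) -/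
abbrev Con (G : SimpleGraph V) (X : Set V) : Prop := (G.induce X).Connected

/-- an edge between `X` and `Y` -/
def Tch (G : SimpleGraph V) (X Y : Set V) : Prop := ∃ x ∈ X, ∃ y ∈ Y, G.Adj x y

theorem Tch.symm {X Y : Set V} (h : Tch G X Y) : Tch G Y X := by
  obtain ⟨x, hx, y, hy, hxy⟩ := h
  exact ⟨y, hy, x, hx, hxy.symm⟩

theorem tch_comm {X Y : Set V} : Tch G X Y ↔ Tch G Y X := ⟨Tch.symm, Tch.symm⟩

theorem Tch.mono {X Y X' Y' : Set V} (h : Tch G X Y) (hX : X ⊆ X') (hY : Y ⊆ Y') :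
    Tch G X' Y' := by
  obtain ⟨x, hx, y, hy, hxy⟩ := h
  exact ⟨x, hX hx, y, hY hy, hxy⟩

theorem tch_union_left {X X' Y : Set V} : Tch G (X ∪ X') Y ↔ Tch G X Y ∨ Tch G X' Y := by
  constructor
  · rintro ⟨x, hx | hx, y, hy, hxy⟩
    · exact Or.inl ⟨x, hx, y, hy, hxy⟩
    · exact Or.inr ⟨x, hx, y, hy, hxy⟩
  · rintro (h | h)
    · exact h.mono Set.subset_union_left le_rfl
    · exact h.mono Set.subset_union_right le_rfl

theorem tch_union_right {X Y Y' : Set V} : Tch G X (Y ∪ Y') ↔ Tch G X Y ∨ Tch G X Y' := by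
  rw [tch_comm, tch_union_left, tch_comm (X := Y), tch_comm (X := Y')]

/-- two touching connected sets have a connected union -/
theorem con_union {X Y : Set V} (hX : Con G X) (hY : Con G Y) (h : Tch G X Y) :
    Con G (X ∪ Y) := by
  obtain ⟨x, hx, y, hy, hxy⟩ := h
  have : Nonempty (X ∪ Y : Set V) := ⟨⟨x, Or.inl hx⟩⟩
  have key : ∀ z : (X ∪ Y : Set V), (G.induce (X ∪ Y)).Reachable ⟨x, Or.inl hx⟩ z := by
    rintro ⟨z, hz | hz⟩
    · exact ((hX.preconnected ⟨x, hx⟩ ⟨z, hz⟩).map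
        (induceHomOfLE G (Set.subset_union_left : X ⊆ X ∪ Y)).toHom)
    · have h1 : (G.induce (X ∪ Y)).Reachable ⟨x, Or.inl hx⟩ ⟨y, Or.inr hy⟩ :=
        Adj.reachable (show G.Adj x y from hxy)
      exact h1.trans ((hY.preconnected ⟨y, hy⟩ ⟨z, hz⟩).map
        (induceHomOfLE G (Set.subset_union_right : Y ⊆ X ∪ Y)).toHom)
  exact ⟨fun a b => (key a).symm.trans (key b)⟩

/-- a connected set which is the union of two nonempty sets: the two sets touch -/
theorem tch_of_split {X P Q : Set V} (hX : Con G X) (h : P ∪ Q = X) (hP : P.Nonempty)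
    (hQ : Q.Nonempty) (hd : Disjoint P Q) : Tch G P Q := by
  by_contra hno
  obtain ⟨p, hp⟩ := hP
  obtain ⟨q, hq⟩ := hQ
  have hpX : p ∈ X := h ▸ Or.inl hp
  have hqX : q ∈ X := h ▸ Or.inr hq
  obtain ⟨w⟩ := hX.preconnected ⟨p, hpX⟩ ⟨q, hqX⟩
  have key : ∀ (a b : X) (w : (G.induce X).Walk a b), a.1 ∈ P → b.1 ∈ P := by
    intro a b w
    induction w with
    | nil => exact id
    | @cons a b c hab _ ih =>
      intro ha
      refine ih ?_
      have hb : b.1 ∈ P ∪ Q := by rw [h]; exact b.2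
      rcases hb with hb | hb
      · exact hb
      · exact absurd ⟨a.1, ha, b.1, hb, hab⟩ hno
  exact Set.disjoint_left.1 hd (key _ _ w hp) hq

/-- `K_5` constructor: five connected, disjoint, pairwise touching sets -/
theorem k5_of (X : Fin 5 → Set V) (hc : ∀ a, Con G (X a))
    (hd : ∀ a b, a ≠ b → Disjoint (X a) (X b)) (ht : ∀ a b, a < b → Tch G (X a) (X b)) :
    IsMinor (⊤ : SimpleGraph (Fin 5)) G := by
  refine ⟨X, hc, hd, fun a b hab => ?_⟩
  have hne : a ≠ b := hab.ne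
  rcases lt_or_gt_of_ne hne with h | h
  · exact ht a b h
  · exact (ht b a h).symm

/-- the quotient graph of a family of sets -/
def Quo (G : SimpleGraph V) (P : ι → Set V) : SimpleGraph ι where
  Adj i j := i ≠ j ∧ Tch G (P i) (P j)
  symm := ⟨fun _ _ h => ⟨h.1.symm, h.2.symm⟩⟩
  loopless := ⟨fun _ h => h.1 rfl⟩

theorem quo_minor {P : ι → Set V} (hc : ∀ i, Con G (P i))
    (hd : ∀ i j, i ≠ j → Disjoint (P i) (P j)) : IsMinor (Quo G P) G :=
  ⟨P, hc, hd, fun _ _ h => h.2⟩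

/-- the pair constructor in any graph `K`: five classes `{p a, q a}`, each one vertex or an edge -/
theorem k5_pairs {K : SimpleGraph ι} (p q : Fin 5 → ι)
    (hpq : ∀ a, p a = q a ∨ K.Adj (p a) (q a))
    (hd : ∀ a b, a ≠ b → p a ≠ p b ∧ p a ≠ q b ∧ q a ≠ p b ∧ q a ≠ q b)
    (ht : ∀ a b, a < b → K.Adj (p a) (p b) ∨ K.Adj (p a) (q b) ∨ K.Adj (q a) (p b) ∨
      K.Adj (q a) (q b)) : IsMinor (⊤ : SimpleGraph (Fin 5)) K := by
  refine k5_of (fun a => {p a, q a}) (fun a => ?_) (fun a b hab => ?_) (fun a b hab => ?_)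
  · rcases hpq a with h | h
    · have : ({p a, q a} : Set ι) = {p a} := by rw [← h]; simp
      show (K.induce ({p a, q a} : Set ι)).Connected
      rw [this]
      exact conn_single K _
    · exact conn_pair K h
  · obtain ⟨h1, h2, h3, h4⟩ := hd a b hab
    rw [Set.disjoint_left]
    rintro x (rfl | rfl) (hx | hx)
    · exact h1 hx
    · exact h2 hx
    · exact h3 hx
    · exact h4 hx
  · rcases ht a b hab with h | h | h | h
    · exact ⟨p a, Or.inl rfl, p b, Or.inl rfl, h⟩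
    · exact ⟨p a, Or.inl rfl, q b, Or.inr rfl, h⟩
    · exact ⟨q a, Or.inr rfl, p b, Or.inl rfl, h⟩
    · exact ⟨q a, Or.inr rfl, q b, Or.inr rfl, h⟩

/-- the pair constructor for a family of connected disjoint sets -/
theorem k5_family {P : ι → Set V} (hc : ∀ i, Con G (P i))
    (hdis : ∀ i j, i ≠ j → Disjoint (P i) (P j)) (p q : Fin 5 → ι)
    (hpq : ∀ a, p a = q a ∨ Tch G (P (p a)) (P (q a)))
    (hd : ∀ a b, a ≠ b → p a ≠ p b ∧ p a ≠ q b ∧ q a ≠ p b ∧ q a ≠ q b)
    (ht : ∀ a b, a < b → Tch G (P (p a)) (P (p b)) ∨ Tch G (P (p a)) (P (q b)) ∨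
      Tch G (P (q a)) (P (p b)) ∨ Tch G (P (q a)) (P (q b))) :
    IsMinor (⊤ : SimpleGraph (Fin 5)) G := by
  refine minor_trans (k5_pairs (K := Quo G P) p q (fun a => ?_) hd (fun a b hab => ?_))
    (quo_minor hc hdis)
  · by_cases h : p a = q a
    · exact Or.inl h
    · rcases hpq a with h' | h'
      · exact absurd h' h
      · exact Or.inr ⟨h, h'⟩
  · obtain ⟨h1, h2, h3, h4⟩ := hd a b hab.ne
    rcases ht a b hab with h | h | h | h
    · exact Or.inl ⟨h1, h⟩
    · exact Or.inr (Or.inl ⟨h2, h⟩)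
    · exact Or.inr (Or.inr (Or.inl ⟨h3, h⟩))
    · exact Or.inr (Or.inr (Or.inr ⟨h4, h⟩))

/-- [W-DICH] `A_1, A_2, A_3 | B_1, B_2, B_3` connected, disjoint, every `A_i` touches every `B_j`;
an `A`-`A` edge and a `B`-`B` edge give `K_5` -/
theorem dich {A B : Fin 3 → Set V} (hA : ∀ i, Con G (A i)) (hB : ∀ i, Con G (B i))
    (hAA : ∀ i j, i ≠ j → Disjoint (A i) (A j)) (hBB : ∀ i j, i ≠ j → Disjoint (B i) (B j))
    (hAB : ∀ i j, Disjoint (A i) (B j)) (ht : ∀ i j, Tch G (A i) (B j))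
    {i j k l : Fin 3} (hij : i ≠ j) (hkl : k ≠ l) (h1 : Tch G (A i) (A j))
    (h2 : Tch G (B k) (B l)) : IsMinor (⊤ : SimpleGraph (Fin 5)) G := by
  have third : ∀ i j : Fin 3, ∃ m : Fin 3, m ≠ i ∧ m ≠ j := by decide
  obtain ⟨m, hm1, hm2⟩ := third i j
  obtain ⟨n, hn1, hn2⟩ := third k l
  have hBA : ∀ i j, Disjoint (B i) (A j) := fun i j => (hAB j i).symm
  refine k5_of ![A i, A j, B k, B l, A m ∪ B n] ?_ ?_ ?_
  · intro a
    fin_cases a
    · exact hA i
    · exact hA j
    · exact hB k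
    · exact hB l
    · exact con_union (hA m) (hB n) (ht m n)
  · intro a b hab
    have hij' := hAA i j hij
    have hkl' := hBB k l hkl
    have m1 := hAA m i hm1
    have m2 := hAA m j hm2
    have n1 := hBB n k hn1
    have n2 := hBB n l hn2
    fin_cases a <;> fin_cases b <;>
      first
      | exact absurd rfl hab
      | simp [Set.disjoint_union_left, Set.disjoint_union_right, hij', hij'.symm, hkl',
          hkl'.symm, m1, m1.symm, m2, m2.symm, n1, n1.symm, n2, n2.symm, hAB, hBA]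
  · intro a b hab
    have t1 : Tch G (A i) (A m ∪ B n) := tch_union_right.2 (Or.inr (ht i n))
    have t2 : Tch G (A j) (A m ∪ B n) := tch_union_right.2 (Or.inr (ht j n))
    have t3 : Tch G (B k) (A m ∪ B n) := tch_union_right.2 (Or.inl (ht m k).symm)
    have t4 : Tch G (B l) (A m ∪ B n) := tch_union_right.2 (Or.inl (ht m l).symm)
    fin_cases a <;> fin_cases b <;>
      first
      | exact absurd hab (by decide)
      | exact h1
      | exact h2
      | exact ht _ _
      | exact t1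
      | exact t2
      | exact t3
      | exact t4

end Vale.Agent.P235.K5.W.H531
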