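import Vale.Agent.P235.K5.W.H531.Dich

/-!
P235, line K5, [WAG], rows [W-SAT] (a family of connected disjoint sets extends to a partition into
connected sets) and [W-START] (the first model) (helper531).
-/

set_option autoImplicit false

namespace Vale.Agent.P235.K5.W.H531

open SimpleGraph Vale.Agent.P235.H134 Vale.Agent.P235.H56

variable {V W : Type} {G : SimpleGraph V}

/-- in a preconnected graph a proper nonempty set has an edge leaving it -/
theorem edge_out (hG : G.Preconnected) {U : Set V} {u v : V} (hu : u ∈ U) (hv : v ∉ U) :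
    ∃ x ∈ U, ∃ y ∉ U, G.Adj x y := by
  by_contra hno
  obtain ⟨w⟩ := hG u v
  have key : ∀ (a b : V) (w : G.Walk a b), a ∈ U → b ∈ U := by
    intro a b w
    induction w with
    | nil => exact id
    | @cons a b c hab _ ih =>
      intro ha
      refine ih ?_
      by_contra hb
      exact hno ⟨a, ha, b, hb, hab⟩
  exact hv (key u v w hu)

/-- [W-SAT] connected pairwise disjoint sets extend to a partition into connected sets -/
theorem saturate [Finite V] [Nonempty W] (hG : G.Preconnected) (μ : W → Set V)
    (hc : ∀ a, Con G (μ a)) (hd : ∀ a b, a ≠ b → Disjoint (μ a) (μ b)) :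
    ∃ f : V → W, ∀ a, Con G {v | f v = a} ∧ μ a ⊆ {v | f v = a} := by
  classical
  suffices H : ∀ n : ℕ, ∀ μ : W → Set V, (∀ a, Con G (μ a)) →
      (∀ a b, a ≠ b → Disjoint (μ a) (μ b)) → (⋃ a, μ a)ᶜ.ncard = n →
      ∃ f : V → W, ∀ a, Con G {v | f v = a} ∧ μ a ⊆ {v | f v = a} from H _ μ hc hd rfl
  intro n
  induction n with
  | zero =>
    intro μ hc hd hn
    have hU : ∀ v, ∃ a, v ∈ μ a := by
      intro v
      have h0 : (⋃ a, μ a)ᶜ = ∅ := (Set.ncard_eq_zero (Set.toFinite _)).1 hn
      have : v ∈ ⋃ a, μ a := by
        by_contra hv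
        have : v ∈ (⋃ a, μ a)ᶜ := hv
        rw [h0] at this
        exact this
      exact Set.mem_iUnion.1 this
    choose f hf using hU
    refine ⟨f, fun a => ?_⟩
    have he : {v | f v = a} = μ a := by
      ext v
      constructor
      · rintro rfl
        exact hf v
      · intro hv
        by_contra hne
        exact Set.disjoint_left.1 (hd _ _ hne) (hf v) hv
    rw [he]
    exact ⟨hc a, le_rfl⟩
  | succ n ih =>
    intro μ hc hd hn
    have hne : (⋃ a, μ a)ᶜ.Nonempty := by
      rw [← Set.ncard_pos (Set.toFinite _)]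
      omega
    obtain ⟨v, hv⟩ := hne
    obtain ⟨a0⟩ : Nonempty W := inferInstance
    obtain ⟨⟨u, hu⟩⟩ := (hc a0).nonempty
    obtain ⟨x, hx, y, hy, hxy⟩ := edge_out hG (U := ⋃ a, μ a)
      (Set.mem_iUnion.2 ⟨a0, hu⟩) hv
    obtain ⟨b, hb⟩ := Set.mem_iUnion.1 hx
    have hyn : ∀ a, y ∉ μ a := fun a h => hy (Set.mem_iUnion.2 ⟨a, h⟩)
    obtain ⟨f, hf⟩ := ih (Function.update μ b (μ b ∪ {y})) (by
        intro a
        by_cases hab : a = b
        · subst hab
          rw [Function.update_self]
          exact con_union (hc a) (conn_single G y) ⟨x, hb, y, rfl, hxy⟩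
        · rw [Function.update_of_ne hab]
          exact hc a) (by
        intro a a' haa
        by_cases hab : a = b
        · subst hab
          rw [Function.update_self, Function.update_of_ne (Ne.symm haa),
            Set.disjoint_union_left, Set.disjoint_singleton_left]
          exact ⟨hd _ _ haa, hyn a'⟩
        · by_cases hab' : a' = b
          · subst hab'
            rw [Function.update_self, Function.update_of_ne hab,
              Set.disjoint_union_right, Set.disjoint_singleton_right]
            exact ⟨hd _ _ haa, hyn a⟩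
          · rw [Function.update_of_ne hab, Function.update_of_ne hab']
            exact hd _ _ haa) (by
        have hU : (⋃ a, Function.update μ b (μ b ∪ {y}) a) = insert y (⋃ a, μ a) := by
          ext z
          rw [Set.mem_iUnion, Set.mem_insert_iff, Set.mem_iUnion]
          constructor
          · rintro ⟨a, ha⟩
            by_cases hab : a = b
            · subst hab
              rw [Function.update_self] at ha
              rcases ha with ha | ha
              · exact Or.inr ⟨_, ha⟩
              · exact Or.inl ha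
            · rw [Function.update_of_ne hab] at ha
              exact Or.inr ⟨_, ha⟩
          · rintro (rfl | ⟨a, ha⟩)
            · refine ⟨b, ?_⟩
              rw [Function.update_self]
              exact Or.inr rfl
            · by_cases hab : a = b
              · subst hab
                refine ⟨a, ?_⟩
                rw [Function.update_self]
                exact Or.inl ha
              · refine ⟨a, ?_⟩
                rw [Function.update_of_ne hab]
                exact ha
        rw [hU]
        have h1 : (insert y (⋃ a, μ a))ᶜ = (⋃ a, μ a)ᶜ \ {y} := by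
          ext z
          simp only [Set.mem_compl_iff, Set.mem_insert_iff, Set.mem_sdiff,
            Set.mem_singleton_iff]
          tauto
        rw [h1, Set.ncard_sdiff_singleton_of_mem (show y ∈ (⋃ a, μ a)ᶜ from hy)]
        omega)
    refine ⟨f, fun a => ⟨(hf a).1, fun z hz => (hf a).2 ?_⟩⟩
    by_cases hab : a = b
    · subst hab
      rw [Function.update_self]
      exact Or.inl hz
    · rw [Function.update_of_ne hab]
      exact hz

/-- every minor model of a preconnected finite graph can be made a partition -/
theorem minor_partition [Finite V] [Nonempty W] {H : SimpleGraph W} (hG : G.Preconnected)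
    (h : IsMinor H G) : ∃ f : V → W, (∀ a, Con G {v | f v = a}) ∧
      ∀ a b, H.Adj a b → Tch G {v | f v = a} {v | f v = b} := by
  obtain ⟨μ, h1, h2, h3⟩ := h
  obtain ⟨f, hf⟩ := saturate hG μ h1 h2
  refine ⟨f, fun a => (hf a).1, fun a b hab => ?_⟩
  obtain ⟨x, hx, y, hy, hxy⟩ := h3 a b hab
  exact ⟨x, (hf a).2 hx, y, (hf b).2 hy, hxy⟩

/-- a graph which is connected in the sense of `Conn3` is preconnected -/
theorem conn3_preconnected (h : Conn3 G) (h4 : 4 ≤ Nat.card V) : G.Preconnected := by
  classical
  intro x y
  by_contra hxy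
  have : Finite V := Nat.finite_of_card_ne_zero (by omega)
  have := Fintype.ofFinite V
  -- the component `C` of `x`; a vertex `s` outside of it is `y`
  have hC : ∀ z, G.Reachable x z ∨ z = y ∨ z = y := by
    refine h y y {z | G.Reachable x z} ⟨x, Reachable.refl x⟩ hxy hxy ?_
    intro u hu v huv
    exact Or.inl (Reachable.trans hu huv.reachable)
  -- so `y` is isolated and everything else is in the component of `x`
  have hy : ∀ z, ¬ G.Adj y z := by
    intro z hz
    rcases hC z with h' | h' | h'
    · exact hxy (h'.trans hz.symm.reachable)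
    · exact hz.ne h'.symm
    · exact hz.ne h'.symm
  -- take two vertices different from `y`
  obtain ⟨a, b, hab, hay, hby⟩ : ∃ a b : V, a ≠ b ∧ a ≠ y ∧ b ≠ y := by
    have h2 : 2 < Fintype.card V := by
      rw [← Nat.card_eq_fintype_card]; omega
    obtain ⟨a, b, c, h1, h2, h3⟩ := Fintype.two_lt_card_iff.1 h2
    by_cases ha : a = y
    · exact ⟨b, c, h3, fun h => h1 (ha.trans h.symm), fun h => h2 (ha.trans h.symm)⟩
    · by_cases hb : b = y
      · exact ⟨a, c, h2, ha, fun h => h3 (hb.trans h.symm)⟩
      · exact ⟨a, b, h1, ha, hb⟩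
  rcases h a a {y} ⟨y, rfl⟩ hay hay (fun u hu v huv => by
    rw [Set.mem_singleton_iff] at hu
    subst hu
    exact absurd huv (hy v)) b with h' | h' | h'
  · exact hby h'
  · exact hab h'.symm
  · exact hab h'.symm

/-- `K_5` itself -/
theorem k5_of_complete (h5 : Nat.card V = 5) (hK : ∀ x y : V, x ≠ y → G.Adj x y) :
    IsMinor (⊤ : SimpleGraph (Fin 5)) G := by
  have : Finite V := Nat.finite_of_card_ne_zero (by omega)
  have := Fintype.ofFinite V
  have e : Fin 5 ≃ V := by
    refine (Fintype.equivFinOfCardEq ?_).symm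
    rw [← Nat.card_eq_fintype_card]
    exact h5
  refine k5_of (fun a => {e a}) (fun a => conn_single G _) (fun a b hab => ?_)
    (fun a b hab => ?_)
  · rw [Set.disjoint_singleton]
    exact fun h => hab (e.injective h)
  · exact ⟨e a, rfl, e b, rfl, hK _ _ (fun h => hab.ne (e.injective h))⟩

/-- [W-START] a 3-connected graph without a `K_5` minor is plane or has a model: a partition into
connected parts `A_1, A_2, A_3 | B_1, B_2, B_3` such that every `A_i` touches every `B_j` -/
theorem start (hB : ThmB) [Finite V] (h : Conn3 G) (h4 : 4 ≤ Nat.card V)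
    (h5 : ¬ IsMinor (⊤ : SimpleGraph (Fin 5)) G) :
    (∃ σ : Equiv.Perm G.Dart, PlaneMap G σ) ∨
    ∃ f : V → Fin 3 ⊕ Fin 3, (∀ a, Con G {v | f v = a}) ∧
      ∀ i j, Tch G {v | f v = Sum.inl i} {v | f v = Sum.inr j} := by
  by_cases h33 : IsMinor K33 G
  · obtain ⟨f, h1, h2⟩ := minor_partition (conn3_preconnected h h4) h33
    exact Or.inr ⟨f, h1, fun i j => h2 _ _ (by simp [K33])⟩
  · rcases hB V G h h4 h33 with h' | ⟨h', h''⟩
    · exact Or.inl h'
    · exact absurd (k5_of_complete h' h'') h5

/-- the same with six sets -/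
theorem start_sets (hB : ThmB) [Finite V] (h : Conn3 G) (h4 : 4 ≤ Nat.card V)
    (h5 : ¬ IsMinor (⊤ : SimpleGraph (Fin 5)) G) :
    (∃ σ : Equiv.Perm G.Dart, PlaneMap G σ) ∨
    ∃ A B : Fin 3 → Set V, (∀ v, ∃ i, v ∈ A i ∨ v ∈ B i) ∧
      (∀ i, Con G (A i)) ∧ (∀ i, Con G (B i)) ∧
      (∀ i j, i ≠ j → Disjoint (A i) (A j)) ∧ (∀ i j, i ≠ j → Disjoint (B i) (B j)) ∧
      (∀ i j, Disjoint (A i) (B j)) ∧ ∀ i j, Tch G (A i) (B j) := by
  rcases start hB h h4 h5 with h' | ⟨f, h1, h2⟩
  · exact Or.inl h'
  · refine Or.inr ⟨fun i => {v | f v = Sum.inl i}, fun j => {v | f v = Sum.inr j},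
      fun v => ?_, fun i => h1 _, fun j => h1 _, fun i j hij => ?_, fun i j hij => ?_,
      fun i j => ?_, h2⟩
    · rcases hv : f v with i | j
      · exact ⟨i, Or.inl hv⟩
      · exact ⟨j, Or.inr hv⟩
    · rw [Set.disjoint_left]
      intro v (hv : f v = _) (hv' : f v = _)
      exact hij (Sum.inl_injective (hv.symm.trans hv'))
    · rw [Set.disjoint_left]
      intro v (hv : f v = _) (hv' : f v = _)
      exact hij (Sum.inr_injective (hv.symm.trans hv'))
    · rw [Set.disjoint_left]
      intro v (hv : f v = _) (hv' : f v = _)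
      exact absurd (hv.symm.trans hv') (by simp)

end Vale.Agent.P235.K5.W.H531
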