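import Vale.Agent.P235.K5.W.H531.Start
import Vale.Agent.P235.K5.W.H516.Pure

/-!
P235, line K5, [WAG]: steps (1) + (3) put together (helper531): from a `K_{3,3}` minor and no `K_5`
minor to a cut or a pure model in set letters.
-/

set_option autoImplicit false

namespace Vale.Agent.P235.K5.W.H531

open SimpleGraph Vale.Agent.P235.H134 Vale.Agent.P235.H56
open Vale.Agent.P235.K5.W.H516 (Mdl Clean)

variable {V : Type} {G : SimpleGraph V}

/-- three vertices whose removal leaves at least three components -/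
def Cut3 (G : SimpleGraph V) : Prop :=
  ∃ (S : Finset V) (D : Fin 3 → Set V), S.card = 3 ∧
    (∀ j, (G.induce (D j)).Connected) ∧ (∀ j, Disjoint (D j) (S : Set V)) ∧
    (∀ j j', j ≠ j' → Disjoint (D j) (D j')) ∧
    ∀ j, ∀ u ∈ D j, ∀ v, G.Adj u v → v ∈ D j ∨ v ∈ S

/-- a pure model: a partition of `V` into connected parts `A_1, A_2, A_3 | B_1, B_2, B_3`, every
`A_i` touches every `B_j`, no other two parts touch -/
structure PureM (G : SimpleGraph V) (A B : Fin 3 → Set V) : Prop where
  cov : ∀ v, (∃ i, v ∈ A i) ∨ ∃ j, v ∈ B j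
  cA : ∀ i, Con G (A i)
  cB : ∀ i, Con G (B i)
  dA : ∀ i j, i ≠ j → Disjoint (A i) (A j)
  dB : ∀ i j, i ≠ j → Disjoint (B i) (B j)
  dAB : ∀ i j, Disjoint (A i) (B j)
  tch : ∀ i j, Tch G (A i) (B j)
  pA : ∀ i j, i ≠ j → ¬ Tch G (A i) (A j)
  pB : ∀ i j, i ≠ j → ¬ Tch G (B i) (B j)

theorem PureM.flip {A B : Fin 3 → Set V} (h : PureM G A B) : PureM G B A where
  cov := fun v => (h.cov v).symm
  cA := h.cB
  cB := h.cA
  dA := h.dB
  dB := h.dA
  dAB := fun i j => (h.dAB j i).symm
  tch := fun i j => (h.tch j i).symm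
  pA := h.pB
  pB := h.pA

theorem PureM.perm {A B : Fin 3 → Set V} (h : PureM G A B) (s t : Equiv.Perm (Fin 3)) :
    PureM G (fun i => A (s i)) (fun j => B (t j)) where
  cov := fun v => by
    rcases h.cov v with ⟨i, hi⟩ | ⟨j, hj⟩
    · exact Or.inl ⟨s.symm i, by simpa using hi⟩
    · exact Or.inr ⟨t.symm j, by simpa using hj⟩
  cA := fun i => h.cA _
  cB := fun i => h.cB _
  dA := fun i j hij => h.dA _ _ (fun e => hij (s.injective e))
  dB := fun i j hij => h.dB _ _ (fun e => hij (t.injective e))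
  dAB := fun i j => h.dAB _ _
  tch := fun i j => h.tch _ _
  pA := fun i j hij => h.pA _ _ (fun e => hij (s.injective e))
  pB := fun i j hij => h.pB _ _ (fun e => hij (t.injective e))

theorem mdl_disj (f : V → Bool × Fin 3) {p q : Bool × Fin 3} (h : p ≠ q) :
    Disjoint {v | f v = p} {v | f v = q} := by
  rw [Set.disjoint_left]
  intro v (hv : f v = p) (hv' : f v = q)
  exact h (hv.symm.trans hv')

/-- (1) in the letters of `H516` -/
theorem dich_mdl (h5 : ¬ IsMinor (⊤ : SimpleGraph (Fin 5)) G) (f : V → Bool × Fin 3)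
    (hf : Mdl G f) : Clean G f true ∨ Clean G f false := by
  by_contra hno
  rw [not_or] at hno
  obtain ⟨h1, h2⟩ := hno
  unfold Clean at h1 h2
  push Not at h1 h2
  obtain ⟨u, v, hu, hv, huv, ha⟩ := h1
  obtain ⟨u', v', hu', hv', huv', ha'⟩ := h2
  apply h5
  refine dich (A := fun i => {v | f v = (true, i)}) (B := fun i => {v | f v = (false, i)})
    (fun i => hf.conn _) (fun i => hf.conn _) (fun i j hij => mdl_disj f ?_)
    (fun i j hij => mdl_disj f ?_) (fun i j => mdl_disj f ?_) (fun i j => ?_)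
    (i := (f u).2) (j := (f v).2) (k := (f u').2) (l := (f v').2) ?_ ?_
    ⟨u, ?_, v, ?_, ha⟩ ⟨u', ?_, v', ?_, ha'⟩
  · exact fun e => hij (Prod.mk.inj e).2
  · exact fun e => hij (Prod.mk.inj e).2
  · exact fun e => absurd (Prod.mk.inj e).1 (by decide)
  · obtain ⟨x, y, hx, hy, hxy⟩ := hf.adj i j
    exact ⟨x, hx, y, hy, hxy⟩
  · exact fun e => huv (Prod.ext (hu.trans hv.symm) e)
  · exact fun e => huv' (Prod.ext (hu'.trans hv'.symm) e)
  · exact Prod.ext hu rfl
  · exact Prod.ext hv rfl
  · exact Prod.ext hu' rfl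
  · exact Prod.ext hv' rfl

/-- a `K_{3,3}` minor in a preconnected finite graph gives a model -/
theorem exists_mdl [Finite V] (hG : G.Preconnected) (h : IsMinor K33 G) : ∃ f, Mdl G f := by
  obtain ⟨f, h1, h2⟩ := minor_partition hG h
  refine ⟨fun v => Sum.elim (fun i => (true, i)) (fun j => (false, j)) (f v), ?_, ?_⟩
  · rintro ⟨b, i⟩
    cases b
    · have e : {v | Sum.elim (fun i => (true, i)) (fun j => (false, j)) (f v) = (false, i)} =
          {v | f v = Sum.inr i} := by
        ext v
        show Sum.elim (fun i => (true, i)) (fun j => (false, j)) (f v) = (false, i) ↔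
          f v = Sum.inr i
        rcases f v with k | k <;> simp
      rw [e]
      exact h1 _
    · have e : {v | Sum.elim (fun i => (true, i)) (fun j => (false, j)) (f v) = (true, i)} =
          {v | f v = Sum.inl i} := by
        ext v
        show Sum.elim (fun i => (true, i)) (fun j => (false, j)) (f v) = (true, i) ↔
          f v = Sum.inl i
        rcases f v with k | k <;> simp
      rw [e]
      exact h1 _
  · intro i j
    obtain ⟨x, hx, y, hy, hxy⟩ := h2 (Sum.inl i) (Sum.inr j) (by simp [K33])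
    refine ⟨x, y, ?_, ?_, hxy⟩
    · have hx' : f x = Sum.inl i := hx
      simp [hx']
    · have hy' : f y = Sum.inr j := hy
      simp [hy']

/-- (1) + (3): no `K_5` minor and a `K_{3,3}` minor give a 3-cut with three components or a pure
model -/
theorem front [Finite V] (hG : G.Preconnected) (h5 : ¬ IsMinor (⊤ : SimpleGraph (Fin 5)) G)
    (h33 : IsMinor K33 G) : Cut3 G ∨ ∃ A B : Fin 3 → Set V, PureM G A B := by
  rcases Vale.Agent.P235.K5.W.H516.pure_or_cut G (dich_mdl h5) (exists_mdl hG h33) with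
    ⟨f, hf, h1, h2⟩ | ⟨S, A, hS, hA, hAS, hd, hN⟩
  · refine Or.inr ⟨fun i => {v | f v = (true, i)}, fun i => {v | f v = (false, i)}, ?_, ?_, ?_,
      ?_, ?_, ?_, ?_, ?_, ?_⟩
    · intro v
      rcases hv : f v with ⟨b, i⟩
      cases b
      · exact Or.inr ⟨i, hv⟩
      · exact Or.inl ⟨i, hv⟩
    · exact fun i => hf.conn _
    · exact fun i => hf.conn _
    · exact fun i j hij => mdl_disj f (fun e => hij (Prod.mk.inj e).2)
    · exact fun i j hij => mdl_disj f (fun e => hij (Prod.mk.inj e).2)
    · exact fun i j => mdl_disj f (fun e => absurd (Prod.mk.inj e).1 (by decide))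
    · intro i j
      obtain ⟨x, y, hx, hy, hxy⟩ := hf.adj i j
      exact ⟨x, hx, y, hy, hxy⟩
    · rintro i j hij ⟨x, hx, y, hy, hxy⟩
      have hx' : f x = (true, i) := hx
      have hy' : f y = (true, j) := hy
      refine h1 x y (by rw [hx']) (by rw [hy']) (fun e => hij ?_) hxy
      rw [hx', hy'] at e
      exact (Prod.mk.inj e).2
    · rintro i j hij ⟨x, hx, y, hy, hxy⟩
      have hx' : f x = (false, i) := hx
      have hy' : f y = (false, j) := hy
      refine h2 x y (by rw [hx']) (by rw [hy']) (fun e => hij ?_) hxy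
      rw [hx', hy'] at e
      exact (Prod.mk.inj e).2
  · refine Or.inl ⟨S, A, hS, hA, fun i => ?_, hd, fun i u hu v huv => ?_⟩
    · rw [Set.disjoint_left]
      exact fun v hv hS' => hAS i v hv (Finset.mem_coe.1 hS')
    · by_cases hv : v ∈ A i
      · exact Or.inl hv
      · exact Or.inr (hN i u hu v huv hv)

end Vale.Agent.P235.K5.W.H531
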